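import Vale.Agent.P141.H581.StageY
import Vale.Agent.P141.H186.PriceS

/-!
# P141, line A: the price form of the stage sum `H581.stageY`

`y = t / r`, `u = t y ^ (-c3)`, third function divided by `√ez`, `M` the number of points times
`4 ^ N`.  Levels: `τ = t0 u s ^ (1/4)`, `g = τ y ^ (η/4)`, `e₂ = s ^ (1/4) y ^ Ce`,
`σ = s ^ (1/4) y ^ (Ce + Ck)`, `cC ≤ c0 s ^ (1/4) y ^ (-C1)`.

* `levels`: the numbers of levels are `O(y ^ (-δ))`, constant free of `t`, `s`, `y`;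
* `params`: the level indices of `stageY`;
* `stageY_fin`: `stageY` with the raw pair sums in these units as the only input; the family sum is
  at most `C M u s ^ (5/4) y ^ (η/8 - 2 δ)`.
-/

namespace Vale.Agent.P141.H727

open Finset Matrix Vale.Agent.P075 Vale.Agent.P141.PL Vale.Agent.P141.PL.H588
open Vale.Agent.P141.PL.H804 Vale.Agent.P141.H958 Vale.Agent.P141.H609 Vale.Agent.P141.H581

noncomputable section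

/-- **The number of levels.** -/
theorem levels {δ C X0 : ℝ} (hδ : 0 < δ) (hC : 0 ≤ C) (hX : 0 ≤ X0) :
    ∃ L1 : ℝ, 0 ≤ L1 ∧ ∀ y : ℝ, 0 < y → y ≤ 1 → ∀ x : ℝ, x ≤ X0 * y ^ (-C) →
      ∃ D : ℕ, x ≤ 2 ^ (D - 1) ∧ (D : ℝ) ≤ L1 * y ^ (-δ) := by
  have hε : 0 < δ / (C + 1) := by positivity
  set ε := δ / (C + 1) with hεd
  have hl2 : 0 < Real.log 2 := Real.log_pos (by norm_num)
  refine ⟨(X0 + 1) ^ ε / ε / Real.log 2 + 2, by positivity, ?_⟩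
  intro y hy hy1 x hx
  have hyC : 1 ≤ y ^ (-C) := Real.one_le_rpow_of_pos_of_le_one_of_nonpos hy hy1 (by linarith)
  have hyδ : 1 ≤ y ^ (-δ) := Real.one_le_rpow_of_pos_of_le_one_of_nonpos hy hy1 (by linarith)
  set z : ℝ := (X0 + 1) * y ^ (-C) with hz
  have hz1 : 1 ≤ z := by nlinarith
  have hz0 : 0 < z := by linarith
  have hxz : x ≤ z := by
    refine hx.trans ?_
    rw [hz]
    nlinarith
  refine ⟨⌈Real.logb 2 z⌉₊ + 1, ?_, ?_⟩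
  · rw [Nat.add_sub_cancel]
    refine hxz.trans ?_
    have h1 : Real.logb 2 z ≤ (⌈Real.logb 2 z⌉₊ : ℝ) := Nat.le_ceil _
    have h2 : z = (2 : ℝ) ^ Real.logb 2 z :=
      (Real.rpow_logb (by norm_num) (by norm_num) hz0).symm
    calc z = (2 : ℝ) ^ Real.logb 2 z := h2
      _ ≤ (2 : ℝ) ^ ((⌈Real.logb 2 z⌉₊ : ℕ) : ℝ) :=
          Real.rpow_le_rpow_of_exponent_le (by norm_num) h1
      _ = 2 ^ ⌈Real.logb 2 z⌉₊ := Real.rpow_natCast _ _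
  · have hlog0 : 0 ≤ Real.logb 2 z := Real.logb_nonneg (by norm_num) hz1
    have h1 : (⌈Real.logb 2 z⌉₊ : ℝ) ≤ Real.logb 2 z + 1 := (Nat.ceil_lt_add_one hlog0).le
    have h2 : Real.log z ≤ z ^ ε / ε := Real.log_le_rpow_div hz0.le hε
    have h3 : z ^ ε ≤ (X0 + 1) ^ ε * y ^ (-δ) := by
      rw [hz, Real.mul_rpow (by linarith) (by positivity), ← Real.rpow_mul hy.le]
      refine mul_le_mul_of_nonneg_left ?_ (by positivity)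
      refine Real.rpow_le_rpow_of_exponent_ge hy hy1 ?_
      have : C * ε ≤ δ := by
        rw [hεd, mul_div_assoc', div_le_iff₀ (by linarith)]
        nlinarith
      linarith
    have h4 : Real.logb 2 z ≤ (X0 + 1) ^ ε / ε / Real.log 2 * y ^ (-δ) := by
      unfold Real.logb
      rw [div_mul_eq_mul_div, div_le_div_iff_of_pos_right hl2]
      refine h2.trans ?_
      rw [div_mul_eq_mul_div, div_le_div_iff_of_pos_right hε]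
      exact h3
    push_cast
    nlinarith

theorem lev_le {a b : ℝ} {n : ℕ} (hb : 0 < b) (h : a / b ≤ 2 ^ (n - 1)) : a / 2 ^ (n - 1) ≤ b := by
  rw [div_le_iff₀ hb] at h
  rw [div_le_iff₀ (by positivity)]
  linarith

section par

variable {η c3 C1 Ce Ck t0 c0 t y s : ℝ}

theorem y_le_u (hc3 : 0 ≤ c3) (ht : 0 < t) (ht1 : t ≤ 1) (hy : 0 < y) (hyt : y ≤ t) :
    y ≤ t * y ^ (-c3) := by
  have h1 : 1 ≤ y ^ (-c3) :=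
    Real.one_le_rpow_of_pos_of_le_one_of_nonpos hy (hyt.trans ht1) (by linarith)
  nlinarith

theorem tau_sig (ht0 : 0 ≤ t0) (ht1 : t ≤ 1) (hy : 0 < y)
    (hs : 0 < s) : t0 * (t * y ^ (-c3) * s ^ (1 / 4 : ℝ)) / (s ^ (1 / 4 : ℝ) * y ^ (Ce + Ck)) ≤
      t0 * y ^ (-(Ce + Ck + c3)) := by
  have hS : 0 < s ^ (1 / 4 : ℝ) := Real.rpow_pos_of_pos hs _
  have h1 : y ^ (-(Ce + Ck + c3)) * y ^ (Ce + Ck) = y ^ (-c3) := by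
    rw [← Real.rpow_add hy]; ring_nf
  rw [div_le_iff₀ (by positivity), show t0 * y ^ (-(Ce + Ck + c3)) * (s ^ (1 / 4 : ℝ) *
    y ^ (Ce + Ck)) = t0 * ((y ^ (-(Ce + Ck + c3)) * y ^ (Ce + Ck)) * s ^ (1 / 4 : ℝ)) by ring, h1]
  refine mul_le_mul_of_nonneg_left (mul_le_mul_of_nonneg_right ?_ hS.le) ht0
  have : 0 ≤ y ^ (-c3) := by positivity
  nlinarith

theorem cC_g (hc3 : 0 ≤ c3) (ht0 : 1 ≤ t0) (hc0 : 0 ≤ c0)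
    (ht : 0 < t) (ht1 : t ≤ 1) (hy : 0 < y) (hyt : y ≤ t) (hs : 0 < s) {cC : ℝ}
    (hcC : cC ≤ c0 * (s ^ (1 / 4 : ℝ) * y ^ (-C1))) :
    cC / (t0 * (t * y ^ (-c3) * s ^ (1 / 4 : ℝ)) * y ^ (η / 4)) ≤
      c0 * y ^ (-(C1 + η / 4 + 1)) := by
  have hS : 0 < s ^ (1 / 4 : ℝ) := Real.rpow_pos_of_pos hs _
  rw [div_le_iff₀ (by positivity)]
  refine hcC.trans ?_
  have h1 := y_le_u hc3 ht ht1 hy hyt
  have h2 : y ^ (-C1) = y ^ (-(C1 + η / 4 + 1)) * (y * y ^ (η / 4)) := by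
    nth_rewrite 3 [← Real.rpow_one y]
    rw [← Real.rpow_add hy, ← Real.rpow_add hy]; ring_nf
  have h0 : 0 ≤ t * y ^ (-c3) := by positivity
  have h3 : y ≤ t0 * (t * y ^ (-c3)) := by nlinarith
  have h4 : y ^ (-C1) ≤ y ^ (-(C1 + η / 4 + 1)) * (t0 * (t * y ^ (-c3)) * y ^ (η / 4)) := by
    rw [h2]
    refine mul_le_mul_of_nonneg_left ?_ (by positivity)
    exact mul_le_mul_of_nonneg_right h3 (by positivity)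
  calc c0 * (s ^ (1 / 4 : ℝ) * y ^ (-C1)) ≤ c0 * (s ^ (1 / 4 : ℝ) *
        (y ^ (-(C1 + η / 4 + 1)) * (t0 * (t * y ^ (-c3)) * y ^ (η / 4)))) :=
        mul_le_mul_of_nonneg_left (mul_le_mul_of_nonneg_left h4 hS.le) hc0
    _ = _ := by ring

theorem cC_e (hy : 0 < y) (hs : 0 < s) {cC : ℝ}
    (hcC : cC ≤ c0 * (s ^ (1 / 4 : ℝ) * y ^ (-C1))) :
    cC / (s ^ (1 / 4 : ℝ) * y ^ Ce) ≤ c0 * y ^ (-(C1 + Ce)) := by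
  rw [div_le_iff₀ (by positivity)]
  refine hcC.trans (le_of_eq ?_)
  have h0 : y ^ (-(C1 + Ce)) = y ^ (-C1) * y ^ (-Ce) := by
    rw [← Real.rpow_add hy]; ring_nf
  have h1 : y ^ (-Ce) * y ^ Ce = 1 := by
    rw [← Real.rpow_add hy, neg_add_cancel, Real.rpow_zero]
  rw [h0]
  calc c0 * (s ^ (1 / 4 : ℝ) * y ^ (-C1)) =
      c0 * (s ^ (1 / 4 : ℝ) * y ^ (-C1)) * (y ^ (-Ce) * y ^ Ce) := by rw [h1, mul_one]
    _ = _ := by ring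

theorem e_tau (hc3 : 0 ≤ c3) (ht0 : 1 ≤ t0) (hCe : 1 ≤ Ce) (ht : 0 < t)
    (ht1 : t ≤ 1) (hy : 0 < y) (hyt : y ≤ t) (hs : 0 < s) :
    s ^ (1 / 4 : ℝ) * y ^ Ce ≤ t0 * (t * y ^ (-c3) * s ^ (1 / 4 : ℝ)) := by
  have hS : 0 < s ^ (1 / 4 : ℝ) := Real.rpow_pos_of_pos hs _
  have h1 : y ^ Ce ≤ t * y ^ (-c3) := by
    refine (Real.rpow_le_rpow_of_exponent_ge hy (hyt.trans ht1) hCe).trans ?_
    rw [Real.rpow_one]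
    exact y_le_u hc3 ht ht1 hy hyt
  have h2 : 0 ≤ t * y ^ (-c3) * s ^ (1 / 4 : ℝ) := by positivity
  have h3 : s ^ (1 / 4 : ℝ) * y ^ Ce ≤ t * y ^ (-c3) * s ^ (1 / 4 : ℝ) := by
    rw [mul_comm (t * y ^ (-c3))]
    exact mul_le_mul_of_nonneg_left h1 hS.le
  nlinarith

/-- **The level indices.** -/
theorem params {δ : ℝ} (hη : 0 ≤ η) (hδ : 0 < δ) (hc3 : 0 ≤ c3)
    (hC1 : 0 ≤ C1) (hCk : 0 ≤ Ck) (hCe : 1 ≤ Ce) (ht0 : 1 ≤ t0) (hc0 : 0 ≤ c0) :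
    ∃ L1 : ℝ, 0 ≤ L1 ∧ ∀ t y s : ℝ, 0 < t → t ≤ 1 → 0 < y → y ≤ t → 0 < s →
    ∀ τ g e₂ σ : ℝ, τ = t0 * (t * y ^ (-c3) * s ^ (1 / 4 : ℝ)) → g = τ * y ^ (η / 4) →
    e₂ = s ^ (1 / 4 : ℝ) * y ^ Ce → σ = s ^ (1 / 4 : ℝ) * y ^ (Ce + Ck) →
    ∀ cC : ℝ, cC ≤ c0 * (s ^ (1 / 4 : ℝ) * y ^ (-C1)) →
    ∃ D L₀ L₁ : ℕ, (D : ℝ) ≤ L1 * y ^ (-δ) ∧ (L₀ : ℝ) ≤ L1 * y ^ (-δ) ∧
      (L₁ : ℝ) ≤ L1 * y ^ (-δ) ∧ τ / 2 ^ (D - 1) ≤ σ ∧ cC / 2 ^ (L₀ - 1) ≤ g ∧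
      cC / 2 ^ (L₁ - 1) ≤ e₂ ∧ σ ≤ e₂ ∧ e₂ ≤ τ ∧ 0 < τ := by
  obtain ⟨l1, hl1, H1⟩ := levels (C := Ce + Ck + c3) (X0 := t0) hδ (by linarith) (by linarith)
  obtain ⟨l2, hl2, H2⟩ := levels (C := C1 + η / 4 + 1) (X0 := c0) hδ (by linarith) hc0
  obtain ⟨l3, hl3, H3⟩ := levels (C := C1 + Ce) (X0 := c0) hδ (by linarith) hc0
  refine ⟨l1 + l2 + l3, by positivity, ?_⟩
  intro t y s ht ht1 hy hyt hs τ g e₂ σ hτ hg he₂ hσ cC hcC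
  have hy1 : y ≤ 1 := hyt.trans ht1
  have hS : 0 < s ^ (1 / 4 : ℝ) := Real.rpow_pos_of_pos hs _
  have hyd : 0 ≤ y ^ (-δ) := by positivity
  obtain ⟨D, hD, hD'⟩ := H1 y hy hy1 _
    (tau_sig (Ce := Ce) (Ck := Ck) (t0 := t0) (c3 := c3) (by linarith) ht1 hy hs)
  obtain ⟨L₀, hL₀, hL₀'⟩ := H2 y hy hy1 _
    (cC_g (η := η) hc3 ht0 hc0 ht ht1 hy hyt hs hcC)
  obtain ⟨L₁, hL₁, hL₁'⟩ := H3 y hy hy1 _ (cC_e (Ce := Ce) hy hs hcC)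
  have up : ∀ {x l : ℝ}, x ≤ l * y ^ (-δ) → l ≤ l1 + l2 + l3 → x ≤ (l1 + l2 + l3) * y ^ (-δ) :=
    fun h1 h2 => h1.trans (mul_le_mul_of_nonneg_right h2 hyd)
  refine ⟨D, L₀, L₁, up hD' (by linarith), up hL₀' (by linarith), up hL₁' (by linarith),
    ?_, ?_, ?_, ?_, ?_, ?_⟩
  · rw [hτ, hσ]; exact lev_le (by positivity) hD
  · rw [hg, hτ]; exact lev_le (by positivity) hL₀
  · rw [he₂]; exact lev_le (by positivity) hL₁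
  · rw [hσ, he₂]
    exact mul_le_mul_of_nonneg_left
      (Real.rpow_le_rpow_of_exponent_ge hy hy1 (by linarith)) hS.le
  · rw [he₂, hτ]; exact e_tau hc3 ht0 hCe ht ht1 hy hyt hs
  · rw [hτ]; positivity

/-- the crude term -/
theorem crude_num {δ CZ A0 Z0 M P₀ Z : ℝ} (hc3 : 0 ≤ c3) (hA0 : 0 ≤ A0) (hZ0 : 0 ≤ Z0)
    (hM : 0 ≤ M) (ht : 0 < t) (ht1 : t ≤ 1) (hy : 0 < y) (hyt : y ≤ t) (hs : 0 < s)
    (hCe : δ + 1 + η / 8 ≤ Ce) (hCe' : CZ + 1 + η / 8 ≤ Ce)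
    (b0 : P₀ ≤ M * (A0 * s * y ^ (-δ))) (bZ : Z ≤ M * (Z0 * s * y ^ (-CZ))) :
    (P₀ + Z) * (s ^ (1 / 4 : ℝ) * y ^ Ce) ≤
      M * ((A0 + Z0) * (t * y ^ (-c3) * s ^ (5 / 4 : ℝ)) * y ^ (η / 8)) := by
  have hS : 0 < s ^ (1 / 4 : ℝ) := Real.rpow_pos_of_pos hs _
  have s54 : s * s ^ (1 / 4 : ℝ) = s ^ (5 / 4 : ℝ) := by
    nth_rewrite 1 [← Real.rpow_one s]
    rw [← Real.rpow_add hs]
    norm_num
  have hu := y_le_u hc3 ht ht1 hy hyt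
  have one : ∀ {w a q : ℝ}, 0 ≤ a → w ≤ M * (a * s * y ^ (-q)) → q + 1 + η / 8 ≤ Ce →
      w * (s ^ (1 / 4 : ℝ) * y ^ Ce) ≤
        M * (a * (t * y ^ (-c3) * s ^ (5 / 4 : ℝ)) * y ^ (η / 8)) := by
    intro w a q ha h1 h2
    refine (mul_le_mul_of_nonneg_right h1 (by positivity)).trans ?_
    have h3 : y ^ (-q) * y ^ Ce ≤ t * y ^ (-c3) * y ^ (η / 8) := by
      have h4 : y ^ (-q + Ce) ≤ y ^ (1 + η / 8) :=
        Real.rpow_le_rpow_of_exponent_ge hy (hyt.trans ht1) (by linarith)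
      have h5 : y ^ (1 + η / 8) = y * y ^ (η / 8) := by
        rw [Real.rpow_add hy, Real.rpow_one]
      rw [← Real.rpow_add hy]
      exact h4.trans (h5.le.trans (mul_le_mul_of_nonneg_right hu (by positivity)))
    calc M * (a * s * y ^ (-q)) * (s ^ (1 / 4 : ℝ) * y ^ Ce) =
        M * a * (s * s ^ (1 / 4 : ℝ)) * (y ^ (-q) * y ^ Ce) := by ring
      _ ≤ M * a * (s * s ^ (1 / 4 : ℝ)) * (t * y ^ (-c3) * y ^ (η / 8)) :=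
        mul_le_mul_of_nonneg_left h3 (by positivity)
      _ = _ := by rw [s54]; ring
  have h1 := one hA0 b0 hCe
  have h2 := one hZ0 bZ hCe'
  calc (P₀ + Z) * (s ^ (1 / 4 : ℝ) * y ^ Ce) =
      P₀ * (s ^ (1 / 4 : ℝ) * y ^ Ce) + Z * (s ^ (1 / 4 : ℝ) * y ^ Ce) := by ring
    _ ≤ _ := add_le_add h1 h2
    _ = _ := by ring

end par

section fin

variable {X : Type*} {I : Finset X} {N : ℕ} {sN : X → ℕ → Finset Pt} {FA FB FC : X → NM}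

/-- the three numbers of the raw pair sums at `x ≥ g = τ θ`, `θ = y ^ (η/4)` -/
theorem raw_num {η δ Λ0 M s u t0 y x τ pA pB : ℝ} (hΛ : 0 ≤ Λ0) (hM : 0 ≤ M) (hs : 0 < s)
    (hu : 0 ≤ u) (ht0 : 0 ≤ t0) (hy : 0 < y) (hτ : τ = t0 * (u * s ^ (1 / 4 : ℝ)))
    (hx : τ * y ^ (η / 4) ≤ x) (nA : 0 ≤ pA)
    (hA : pA ≤ M * (Λ0 * y ^ (-δ) * (s * (τ ^ 2 * y ^ (η / 2) + τ * x * y ^ (η / 4)))))
    (hB : pB ≤ M * (Λ0 * y ^ (-δ) * (s * (τ ^ 2 * y ^ (η / 2) + τ * x)))) (hy1 : y ≤ 1)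
    (hη : 0 ≤ η) :
    pA ≤ 2 * (M * (Λ0 * y ^ (-δ) * (s * (τ * x * y ^ (η / 4))))) ∧
    pB ≤ 2 * (M * (Λ0 * y ^ (-δ) * (s * (τ * x)))) ∧
    √(pB * pA) ≤ M * (2 * Λ0 * t0 * (u * s ^ (5 / 4 : ℝ)) * y ^ (η / 8 - δ)) * x := by
  have hτ0 : 0 ≤ τ := by rw [hτ]; positivity
  have hx0 : 0 ≤ x := le_trans (by positivity) hx
  have hyy : y ^ (η / 2) = y ^ (η / 4) * y ^ (η / 4) := by
    rw [← Real.rpow_add hy]; ring_nf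
  have hy4 : y ^ (η / 4) ≤ 1 := Real.rpow_le_one hy.le hy1 (by linarith)
  have p4 : 0 ≤ y ^ (η / 4) := by positivity
  have h1 : τ ^ 2 * y ^ (η / 2) ≤ τ * x * y ^ (η / 4) := by
    rw [hyy]
    calc τ ^ 2 * (y ^ (η / 4) * y ^ (η / 4)) = τ * (τ * y ^ (η / 4)) * y ^ (η / 4) := by ring
      _ ≤ τ * x * y ^ (η / 4) := by gcongr
  have h2 : τ * x * y ^ (η / 4) ≤ τ * x := by
    have : 0 ≤ τ * x := by positivity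
    nlinarith
  have c0 : 0 ≤ M * (Λ0 * y ^ (-δ) * s) := by positivity
  have a1 : pA ≤ 2 * (M * (Λ0 * y ^ (-δ) * (s * (τ * x * y ^ (η / 4))))) := by
    refine hA.trans ?_
    have := mul_le_mul_of_nonneg_left h1 c0
    nlinarith
  have a2 : pB ≤ 2 * (M * (Λ0 * y ^ (-δ) * (s * (τ * x)))) := by
    refine hB.trans ?_
    have := mul_le_mul_of_nonneg_left (h1.trans h2) c0
    nlinarith
  refine ⟨a1, a2, ?_⟩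
  have s54 : s * s ^ (1 / 4 : ℝ) = s ^ (5 / 4 : ℝ) := by
    nth_rewrite 1 [← Real.rpow_one s]
    rw [← Real.rpow_add hs]
    norm_num
  have h3 : pB * pA ≤ (2 * (M * (Λ0 * y ^ (-δ) * (s * (τ * x))))) ^ 2 * y ^ (η / 4) := by
    refine (mul_le_mul a2 a1 nA (by positivity)).trans (le_of_eq (by ring))
  refine (Real.sqrt_le_sqrt h3).trans (le_of_eq ?_)
  rw [Real.sqrt_mul (sq_nonneg _), Real.sqrt_sq (by positivity)]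
  have h4 : √(y ^ (η / 4)) = y ^ (η / 8) := by
    rw [Real.sqrt_eq_rpow, ← Real.rpow_mul hy.le]; ring_nf
  have h5 : y ^ (η / 8 - δ) = y ^ (-δ) * y ^ (η / 8) := by
    rw [← Real.rpow_add hy]; ring_nf
  rw [h4, h5, hτ, ← s54]
  ring

/-- **`stageY` with the raw pair sums in the units of the price.** -/
theorem stageY_fin {η δ c3 C1 Ce Ck CZ A0 A1 Λ0 Z0 t0 c0 : ℝ} (hη : 0 ≤ η) (hδ : 0 < δ)
    (hc3 : 0 ≤ c3) (hC1 : 0 ≤ C1) (hCk : 0 ≤ Ck)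
    (hCe : δ + 1 + η / 8 ≤ Ce) (hCe' : CZ + 1 + η / 8 ≤ Ce) (hA0 : 0 ≤ A0) (hA1 : 0 ≤ A1)
    (hΛ : 0 ≤ Λ0) (hZ0 : 0 ≤ Z0) (ht0 : 1 ≤ t0) (hc0 : 0 ≤ c0) :
    ∃ C : ℝ, 0 ≤ C ∧ ∀ t y s M : ℝ, 0 < t → t ≤ 1 → 0 < y → y ≤ t → 0 < s → 0 ≤ M →
    ∀ τ g e₂ σ : ℝ, τ = t0 * (t * y ^ (-c3) * s ^ (1 / 4 : ℝ)) → g = τ * y ^ (η / 4) →
    e₂ = s ^ (1 / 4 : ℝ) * y ^ Ce → σ = s ^ (1 / 4 : ℝ) * y ^ (Ce + Ck) →
    ∀ (X : Type) (I : Finset X) (N : ℕ) (sN : X → ℕ → Finset Pt) (FA FB FC : X → NM) (cC : ℝ),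
    0 < cC → cC ≤ c0 * (s ^ (1 / 4 : ℝ) * y ^ (-C1)) →
    (∀ i ∈ I, ∀ k ∈ Icc 1 N, ∀ m ∈ sN i k,
      (1 - gramC ((τ ^ 2)⁻¹ * (4 ^ k)⁻¹) (FA i k m)).PosSemidef) →
    (∀ i ∈ I, ∀ k ∈ Icc 1 N, ∀ m ∈ sN i k,
      (1 - gramC ((τ ^ 2)⁻¹ * (4 ^ k)⁻¹) (FB i k m)).PosSemidef) →
    (∀ i ∈ I, ∀ k ∈ Icc 1 N, ∀ m ∈ sN i k,
      (1 - gramC ((cC ^ 2)⁻¹ * (4 ^ k)⁻¹) (FC i k m)).PosSemidef) →
    ∀ P₀ P₁ Z : ℝ, 0 ≤ P₀ → 0 ≤ P₁ → 0 ≤ Z →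
    P₀ ≤ M * (A0 * s * y ^ (-δ)) → P₁ ≤ M * (A1 * s * y ^ (-δ)) →
    Z ≤ M * (Z0 * s * y ^ (-CZ)) →
    (∀ h, 0 < h → h ≤ τ → RX I N sN h h FA FB ≤ P₀ * h ^ 2) →
    (∀ x, g ≤ x → x ≤ max g cC → RX I N sN x τ FC FA ≤
      M * (Λ0 * y ^ (-δ) * (s * (τ ^ 2 * y ^ (η / 2) + τ * x * y ^ (η / 4))))) →
    (∀ x, g ≤ x → x ≤ max g cC → RX I N sN τ x FB FC ≤
      M * (Λ0 * y ^ (-δ) * (s * (τ ^ 2 * y ^ (η / 2) + τ * x)))) →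
    (∀ x, e₂ ≤ x → x ≤ g → RX I N sN x σ FC FA ≤ P₁ * x ^ 2) →
    (∀ h, 0 < h → h ≤ e₂ → RX I N sN h h FB FC ≤ Z * h ^ 2) →
    (∀ h, 0 < h → h ≤ e₂ → RX I N sN h h FC FA ≤ Z * h ^ 2) →
    UX I N sN τ τ cC FA FB FC 0 0 0 ≤
      M * (C * (t * y ^ (-c3) * s ^ (5 / 4 : ℝ)) * y ^ (η / 8 - 2 * δ)) := by
  obtain ⟨L1, hL1, H⟩ := params (δ := δ) (Ce := Ce) hη hδ hc3 hC1 hCk (by linarith) ht0 hc0
  refine ⟨6 * (2 * Λ0 * t0) * L1 + 6 * L1 * (√(A0 * (2 * Λ0 * t0 ^ 2)) +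
    √(A0 * (2 * Λ0 * t0 ^ 2))) + 6 * L1 * √(A1 * (2 * Λ0 * t0 ^ 2)) + 54 * (A0 + Z0),
    by positivity, ?_⟩
  intro t y s M ht ht1 hy hyt hs hM τ g e₂ σ hτ hg he₂ hσ X I N sN FA FB FC cC hcC hcC' capA capB
    capC P₀ P₁ Z hP₀ hP₁ hZ n0 n1 nZ hAB hrA hrB hCA hZB hZA
  obtain ⟨D, L₀, L₁, bD, b0, b1, h1, h2, h3, h4, h5, pτ⟩ :=
    H t y s ht ht1 hy hyt hs τ g e₂ σ hτ hg he₂ hσ cC hcC'
  have hy1 : y ≤ 1 := hyt.trans ht1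
  set u : ℝ := t * y ^ (-c3) with hu
  have hu0 : 0 ≤ u := by positivity
  have raw : ∀ x, g ≤ x → x ≤ max g cC → _ := fun x hx hx' =>
    raw_num (η := η) (δ := δ) (M := M) (s := s) (u := u) (t0 := t0) (y := y) (x := x) (τ := τ) hΛ
      hM hs hu0 (by linarith) hy hτ (by rw [← hg]; exact hx) RX_nonneg (hrA x hx hx') (hrB x hx hx')
      hy1 hη
  have rg := raw g le_rfl (le_max_left _ _)
  have t2 : τ * τ = t0 ^ 2 * (u ^ 2 * s ^ (1 / 2 : ℝ)) := by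
    have : s ^ (1 / 2 : ℝ) = s ^ (1 / 4 : ℝ) * s ^ (1 / 4 : ℝ) := by
      rw [← Real.rpow_add hs]; norm_num
    rw [hτ, this]; ring
  have s32 : s * s ^ (1 / 2 : ℝ) = s ^ (3 / 2 : ℝ) := by
    nth_rewrite 1 [← Real.rpow_one s]
    rw [← Real.rpow_add hs]
    norm_num
  have bQA : RX I N sN g τ FC FA ≤
      M * (2 * Λ0 * t0 ^ 2 * (u ^ 2 * s ^ (3 / 2 : ℝ)) * y ^ (η / 2 - δ)) := by
    refine rg.1.trans (le_of_eq ?_)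
    have e1 : y ^ (η / 2 - δ) = y ^ (-δ) * (y ^ (η / 4) * y ^ (η / 4)) := by
      rw [← Real.rpow_add hy, ← Real.rpow_add hy]; ring_nf
    rw [hg, e1, ← s32]
    calc 2 * (M * (Λ0 * y ^ (-δ) * (s * (τ * (τ * y ^ (η / 4)) * y ^ (η / 4))))) =
        2 * (M * (Λ0 * y ^ (-δ) * (s * ((τ * τ) * (y ^ (η / 4) * y ^ (η / 4)))))) := by ring
      _ = _ := by rw [t2]; ring
  have bQB : RX I N sN τ g FB FC ≤
      M * (2 * Λ0 * t0 ^ 2 * (u ^ 2 * s ^ (3 / 2 : ℝ)) * y ^ (η / 4 - δ)) := by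
    refine rg.2.1.trans (le_of_eq ?_)
    have e1 : y ^ (η / 4 - δ) = y ^ (-δ) * y ^ (η / 4) := by
      rw [← Real.rpow_add hy]; ring_nf
    rw [hg, e1, ← s32]
    calc 2 * (M * (Λ0 * y ^ (-δ) * (s * (τ * (τ * y ^ (η / 4)))))) =
        2 * (M * (Λ0 * y ^ (-δ) * (s * ((τ * τ) * y ^ (η / 4))))) := by ring
      _ = _ := by rw [t2]; ring
  have main := stageY (I := I) (N := N) (s := sN) (FA := FA) (FB := FB) (FC := FC) pτ hcC capA capB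
    capC (P₀ := P₀) (P₁ := P₁) (QA := RX I N sN g τ FC FA) (QB := RX I N sN τ g FB FC) (Z := Z)
    (κ' := M * (2 * Λ0 * t0 * (u * s ^ (5 / 4 : ℝ)) * y ^ (η / 8 - δ))) (g := g) (σ := σ)
    (e₂ := e₂) hP₀ RX_nonneg hZ (by positivity) (D := D) (L₀ := L₀) (L₁ := L₁) h1 h4 h2 h3 hAB
    (fun h h0 hh => hAB h h0 (hh.trans h5))
    (fun x hx hx' => (raw x hx (hx'.trans (le_max_right _ _))).2.2) le_rfl le_rfl hCA hZB hZA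
  refine main.trans ?_
  have bZ := crude_num (c3 := c3) (η := η) hc3 hA0 hZ0 hM ht ht1 hy hyt hs hCe hCe' n0 nZ
  rw [← he₂] at bZ
  have fin := H186.PriceS.stageY_num (η := η) (δ := δ) (A0 := A0) (A1 := A1)
    (B0 := 2 * Λ0 * t0 ^ 2) (C0 := 2 * Λ0 * t0 ^ 2) (κ0 := 2 * Λ0 * t0) (L' := L1)
    (Z0 := A0 + Z0) (M := M) (u := u) hδ.le hη hA0 hA1 (by positivity) (by positivity)
    (by positivity) hL1 (by positivity) hy hy1 hs hM hu0 b0 bD b1 RX_nonneg RX_nonneg le_rfl n0 n1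
    bQA bQB bZ
  exact fin

end fin

end

end Vale.Agent.P141.H727
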